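import Mathlib

/-!
# Boundaries in a reflexive relation (problem P038)

`R a b` : `b` is in the closed out-neighbourhood of `a`.
-/

namespace Vale.Agent.P038.H586

open Finset

variable {V : Type*} [Fintype V] [DecidableEq V]

open Classical in
/-- closed out-neighbourhood of a set -/
noncomputable def cl (R : V → V → Prop) (S : Finset V) : Finset V :=
  univ.filter fun u => ∃ s ∈ S, R s u

/-- size of the out-boundary -/
noncomputable def c (R : V → V → Prop) (S : Finset V) : ℤ := ((cl R S).card : ℤ) - S.card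

omit [DecidableEq V] in
theorem mem_cl {R : V → V → Prop} {S : Finset V} {u : V} : u ∈ cl R S ↔ ∃ s ∈ S, R s u := by
  simp [cl]

theorem cl_mono {R : V → V → Prop} {S T : Finset V} (h : S ⊆ T) : cl R S ⊆ cl R T := by
  intro u hu
  rw [mem_cl] at hu ⊢
  obtain ⟨s, hs, hr⟩ := hu
  exact ⟨s, h hs, hr⟩

theorem subset_cl {R : V → V → Prop} (hR : ∀ a, R a a) (S : Finset V) : S ⊆ cl R S :=
  fun u hu => mem_cl.2 ⟨u, hu, hR u⟩

theorem cl_union (R : V → V → Prop) (S T : Finset V) : cl R (S ∪ T) = cl R S ∪ cl R T := by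
  ext u
  simp only [mem_cl, mem_union]
  constructor
  · rintro ⟨s, hs | hs, hr⟩
    · exact Or.inl ⟨s, hs, hr⟩
    · exact Or.inr ⟨s, hs, hr⟩
  · rintro (⟨s, hs, hr⟩ | ⟨s, hs, hr⟩)
    · exact ⟨s, Or.inl hs, hr⟩
    · exact ⟨s, Or.inr hs, hr⟩

theorem cl_inter_sub (R : V → V → Prop) (S T : Finset V) : cl R (S ∩ T) ⊆ cl R S ∩ cl R T := by
  intro u hu
  obtain ⟨s, hs, hr⟩ := mem_cl.1 hu
  rw [mem_inter] at hs
  exact mem_inter.2 ⟨mem_cl.2 ⟨s, hs.1, hr⟩, mem_cl.2 ⟨s, hs.2, hr⟩⟩

theorem c_submod (R : V → V → Prop) (S T : Finset V) :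
    c R (S ∪ T) + c R (S ∩ T) ≤ c R S + c R T := by
  have h1 := card_union_add_card_inter (cl R S) (cl R T)
  have h2 := card_union_add_card_inter S T
  have h3 := card_le_card (cl_inter_sub R S T)
  unfold c
  rw [cl_union]
  omega

/-- a counterexample, in closed neighbourhoods -/
structure CE (R : V → V → Prop) : Prop where
  refl : ∀ a, R a a
  anti : ∀ a b, R a b → R b a → a = b
  pos : ∀ v, c R (cl R {v}) < c R {v}

open Classical in
/-- number of pairs of the relation -/
noncomputable def size (R : V → V → Prop) : ℕ :=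
  ((univ : Finset (V × V)).filter fun q => R q.1 q.2).card

/-- Boundary inequality for all sets in a counterexample with the fewest arcs. -/
theorem bd_lt {R : V → V → Prop} (h : CE R) (hmin : ∀ R' : V → V → Prop, CE R' → size R ≤ size R')
    (S : Finset V) (hS : cl R S ≠ S) : c R (cl R S) < c R S := by
  classical
  by_contra hcon
  rw [not_lt] at hcon
  set L := cl R S \ S with hL
  have hSsub := subset_cl h.refl S
  have hLne : L.Nonempty := by
    rw [nonempty_iff_ne_empty]
    intro he
    apply hS
    apply Subset.antisymm _ hSsub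
    rwa [← sdiff_eq_empty_iff_subset]
  let d : Finset V → ℤ := fun T => ((cl R T \ S).card : ℤ) - 2 * T.card
  -- minimiser over proper subsets
  obtain ⟨T, hTmem, hTmin⟩ := exists_min_image (L.powerset.filter fun T => T ≠ L) d
    ⟨∅, by simp [hLne.ne_empty.symm]⟩
  rw [mem_filter, mem_powerset] at hTmem
  obtain ⟨hTL, hTne⟩ := hTmem
  have hd0 : d ∅ = 0 := by
    have : cl R (∅ : Finset V) = ∅ := by
      ext u; simp [mem_cl]
    simp [d, this]
  have hclcl : cl R (cl R S) = S ∪ (cl R L \ S) := by
    ext u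
    simp only [mem_union, mem_sdiff]
    constructor
    · intro hu
      by_cases huS : u ∈ S
      · exact Or.inl huS
      · right
        refine ⟨?_, huS⟩
        obtain ⟨s, hs, hr⟩ := mem_cl.1 hu
        by_cases hsS : s ∈ S
        · have : u ∈ cl R S := mem_cl.2 ⟨s, hsS, hr⟩
          exact mem_cl.2 ⟨u, mem_sdiff.2 ⟨this, huS⟩, h.refl u⟩
        · exact mem_cl.2 ⟨s, mem_sdiff.2 ⟨hs, hsS⟩, hr⟩
    · rintro (hu | ⟨hu, _⟩)
      · exact subset_cl h.refl _ (hSsub hu)
      · exact cl_mono sdiff_subset hu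
  have hdL : d L = c R (cl R S) - c R S := by
    have e1 : (cl R (cl R S)).card = S.card + (cl R L \ S).card := by
      rw [hclcl, card_union_of_disjoint disjoint_sdiff]
    have e2 : (cl R S).card = S.card + L.card := by
      rw [hL, add_comm, card_sdiff_add_card_eq_card hSsub]
    simp only [d, c]
    omega
  have hTall : ∀ T' ⊆ L, d T ≤ d T' := by
    intro T' hT'
    by_cases hE : T' = L
    · have h1 := hTmin ∅ (by simp [hLne.ne_empty.symm])
      rw [hE, hdL]
      rw [hd0] at h1
      linarith
    · exact hTmin T' (by rw [mem_filter, mem_powerset]; exact ⟨hT', hE⟩)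
  -- the deleted relation
  let R' : V → V → Prop := fun a b => R a b ∧ ¬ (a ∈ S ∧ b ∈ L \ T)
  have hR'R : ∀ a b, R' a b → R a b := fun a b hab => hab.1
  have hcl' : ∀ X, cl R' X ⊆ cl R X := by
    intro X u hu
    obtain ⟨s, hs, hr⟩ := mem_cl.1 hu
    exact mem_cl.2 ⟨s, hs, hr.1⟩
  have hrefl' : ∀ a, R' a a := by
    intro a
    refine ⟨h.refl a, ?_⟩
    rintro ⟨ha, hb⟩
    rw [mem_sdiff, hL, mem_sdiff] at hb
    exact hb.1.2 ha
  have hCE' : CE R' := by
    refine ⟨hrefl', fun a b hab hba => h.anti a b hab.1 hba.1, ?_⟩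
    intro v
    have hv := h.pos v
    by_cases hvS : v ∈ S
    · -- rows in S
      set Dv := cl R {v} ∩ (L \ T) with hDv
      have hN' : cl R' {v} = cl R {v} \ Dv := by
        ext u
        simp only [mem_cl, mem_singleton, mem_sdiff, hDv, mem_inter, exists_eq_left]
        constructor
        · rintro ⟨hr, hn⟩
          refine ⟨hr, ?_⟩
          rintro ⟨_, h2⟩
          exact hn ⟨hvS, mem_sdiff.2 h2⟩
        · rintro ⟨hr, hn⟩
          refine ⟨hr, ?_⟩
          rintro ⟨_, h2⟩
          exact hn ⟨hr, mem_sdiff.1 h2⟩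
      have hDvsub : Dv ⊆ cl R {v} := inter_subset_left
      have hcard1 : ((cl R' {v}).card : ℤ) = (cl R {v}).card - Dv.card := by
        have := card_sdiff_add_card_eq_card hDvsub
        rw [hN']
        omega
      -- double neighbourhood
      have hsub1 : cl R' (cl R' {v}) ⊆ cl R (cl R {v}) \ (cl R Dv \ (S ∪ cl R T)) := by
        intro u hu
        obtain ⟨z, hz, hzu⟩ := mem_cl.1 hu
        rw [mem_sdiff]
        refine ⟨mem_cl.2 ⟨z, hcl' _ hz, hzu.1⟩, ?_⟩
        rw [mem_sdiff]
        rintro ⟨_, hno⟩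
        apply hno
        rw [mem_union]
        have hz2 : z ∈ cl R {v} := hcl' _ hz
        by_cases hzS : z ∈ S
        · by_cases huS : u ∈ S
          · exact Or.inl huS
          · right
            have huL : u ∈ L := mem_sdiff.2 ⟨mem_cl.2 ⟨z, hzS, hzu.1⟩, huS⟩
            have huT : u ∈ T := by
              by_contra huT
              exact hzu.2 ⟨hzS, mem_sdiff.2 ⟨huL, huT⟩⟩
            exact subset_cl h.refl T huT
        · right
          have hzL : z ∈ L := by
            obtain ⟨s, hs, hr⟩ := mem_cl.1 hz2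
            rw [mem_singleton] at hs
            subst hs
            exact mem_sdiff.2 ⟨mem_cl.2 ⟨s, hvS, hr⟩, hzS⟩
          have hzT : z ∈ T := by
            by_contra hzT
            rw [hN', mem_sdiff] at hz
            exact hz.2 (mem_inter.2 ⟨hz.1, mem_sdiff.2 ⟨hzL, hzT⟩⟩)
          exact mem_cl.2 ⟨z, hzT, hzu.1⟩
      have hsub2 : cl R Dv \ (S ∪ cl R T) ⊆ cl R (cl R {v}) :=
        sdiff_subset.trans (cl_mono hDvsub)
      have hcard2 : ((cl R' (cl R' {v})).card : ℤ) ≤
          (cl R (cl R {v})).card - (cl R Dv \ (S ∪ cl R T)).card := by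
        have h1 := card_le_card hsub1
        have h2 := card_sdiff_add_card_eq_card hsub2
        omega
      -- minimality of T
      have hDvL : Dv ⊆ L := inter_subset_right.trans sdiff_subset
      have hmT := hTall (T ∪ Dv) (union_subset hTL hDvL)
      have hdisj : Disjoint T Dv := by
        rw [disjoint_left]
        intro x hx hx2
        exact (mem_sdiff.1 (mem_inter.1 hx2).2).2 hx
      have hcT : (T ∪ Dv).card = T.card + Dv.card := card_union_of_disjoint hdisj
      have hcU : (cl R (T ∪ Dv) \ S).card ≤ (cl R T \ S).card + (cl R Dv \ (S ∪ cl R T)).card := by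
        have : cl R (T ∪ Dv) \ S ⊆ (cl R T \ S) ∪ (cl R Dv \ (S ∪ cl R T)) := by
          intro u hu
          rw [mem_sdiff, cl_union, mem_union] at hu
          simp only [mem_union, mem_sdiff]
          tauto
        exact (card_le_card this).trans (card_union_le _ _)
      simp only [d] at hmT
      simp only [c, card_singleton] at hv ⊢
      omega
    · have hN' : cl R' {v} = cl R {v} := by
        ext u
        simp only [mem_cl, mem_singleton, exists_eq_left]
        exact ⟨fun hr => hr.1, fun hr => ⟨hr, fun hh => hvS hh.1⟩⟩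
      have h1 := card_le_card (hcl' (cl R {v}))
      simp only [c, card_singleton] at hv ⊢
      rw [hN']
      omega
  have hlt : size R' < size R := by
    obtain ⟨b, hb⟩ : ∃ b, b ∈ L \ T := by
      by_contra hno
      push Not at hno
      apply hTne
      apply Subset.antisymm hTL
      intro x hx
      by_contra hxT
      exact hno x (mem_sdiff.2 ⟨hx, hxT⟩)
    have hbL : b ∈ L := (mem_sdiff.1 hb).1
    obtain ⟨s, hs, hr⟩ := mem_cl.1 (mem_sdiff.1 hbL).1
    unfold size
    apply card_lt_card
    rw [ssubset_iff_of_subset]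
    · refine ⟨(s, b), by simpa using hr, ?_⟩
      simp only [mem_filter, mem_univ, true_and]
      exact fun hh => hh.2 ⟨hs, hb⟩
    · intro q hq
      simp only [mem_filter, mem_univ, true_and] at hq ⊢
      exact hq.1
  exact absurd (hmin R' hCE') (by omega)

end Vale.Agent.P038.H586
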