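import Vale.Agent.P038.H586.Key
import Vale.Agent.P038.Defs

/-!
# Seymour's second neighbourhood conjecture (problem P038)
-/

namespace Vale.Agent.P038.H586

open Finset

section

variable {V : Type*} [Fintype V] [DecidableEq V]

theorem c_nonneg {R : V → V → Prop} (hR : ∀ a, R a a) (S : Finset V) : 0 ≤ c R S := by
  have := card_le_card (subset_cl hR S)
  unfold c
  omega

theorem no_ce_min [Nonempty V] {R : V → V → Prop} (h : CE R)
    (hmin : ∀ R' : V → V → Prop, CE R' → size R ≤ size R') : False := by
  classical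
  have hR := h.refl
  have hO : Outer R (fun a => cl R {a}) (fun a => cl R {a}) := by
    refine ⟨?_, ?_, ?_⟩
    · intro a x hr
      exact mem_cl.2 ⟨a, mem_singleton_self a, hr⟩
    · intro a x hr
      exact mem_cl.2 ⟨a, mem_singleton_self a, hr⟩
    · intro a x hx hc
      obtain ⟨s, hs, hr⟩ := mem_cl.1 hx
      rw [mem_singleton] at hs
      subst hs
      obtain ⟨s', hs', hr'⟩ := mem_cl.1 hc
      rw [mem_singleton] at hs'
      subst hs'
      exact h.anti _ _ hr hr'
  obtain ⟨p, hp, hpmin⟩ := exists_min_image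
    (univ.filter fun p : (V → Finset V) × (V → Finset V) => Outer R p.1 p.2)
    (fun p => o R p.1 p.2) ⟨(fun a => cl R {a}, fun a => cl R {a}), by simpa using hO⟩
  rw [mem_filter] at hp
  have hpm : ∀ B' C', Outer R B' C' → o R p.1 p.2 ≤ o R B' C' := by
    intro B' C' h'
    exact hpmin (B', C') (by simpa using h')
  obtain ⟨X, Y, hX, hY, hXY, hle⟩ := key hR hp.2 hpm
  have h1 := hpm _ _ hXY
  have hbd : ∀ S, c R (cl R S) ≤ c R S := by
    intro S
    by_cases hS : cl R S = S
    · rw [hS]
    · exact (bd_lt h hmin S hS).le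
  have h2 : ∀ a, cl R (X a) = X a := by
    by_contra hno
    push Not at hno
    obtain ⟨a, ha⟩ := hno
    have h3 : ∑ a, c R (cl R (X a)) < ∑ a, c R (X a) :=
      sum_lt_sum (fun b _ => hbd (X b)) ⟨a, mem_univ a, bd_lt h hmin _ ha⟩
    have h4 : ∑ a, c R (cl R (Y a)) ≤ ∑ a, c R (Y a) := sum_le_sum fun b _ => hbd (Y b)
    unfold o at h1 hle
    linarith
  -- minimal closed set
  obtain ⟨S, hS, hSmin⟩ := exists_min_image
    (univ.filter fun S : Finset V => S.Nonempty ∧ cl R S = S) Finset.card
    ⟨univ, by
      simp only [mem_filter, mem_univ, true_and]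
      exact ⟨univ_nonempty, Subset.antisymm (subset_univ _) (subset_cl hR _)⟩⟩
  simp only [mem_filter, mem_univ, true_and] at hS
  obtain ⟨⟨v, hv⟩, hScl⟩ := hS
  obtain ⟨u, hu, huv⟩ : ∃ u ∈ cl R {v}, u ≠ v := by
    have h5 := h.pos v
    have h6 := c_nonneg hR (cl R {v})
    have h7 : 1 < (cl R {v}).card := by
      have : 0 < c R {v} := by linarith
      unfold c at this
      rw [card_singleton] at this
      omega
    exact exists_mem_ne h7 v
  have hvu : R v u := by
    obtain ⟨s, hs, hr⟩ := mem_cl.1 hu
    rw [mem_singleton] at hs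
    subst hs
    exact hr
  have huS : u ∈ S := by
    rw [← hScl]
    exact mem_cl.2 ⟨v, hv, hvu⟩
  have hvX : v ∉ X u := by
    intro hvX
    have h8 : v ∈ cl R (X u) := subset_cl hR _ hvX
    exact huv (hXY.sep u v h8 (mem_cl.2 ⟨v, hY v, hvu⟩))
  have hcl : cl R (S ∩ X u) = S ∩ X u := by
    apply Subset.antisymm
    · have := cl_inter_sub R S (X u)
      rwa [hScl, h2 u] at this
    · exact subset_cl hR _
  have h9 := hSmin (S ∩ X u) (by
    simp only [mem_filter, mem_univ, true_and]
    exact ⟨⟨u, mem_inter.2 ⟨huS, hX u⟩⟩, hcl⟩)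
  have h10 : (S ∩ X u).card < S.card := by
    apply card_lt_card
    rw [ssubset_iff_of_subset inter_subset_left]
    exact ⟨v, hv, fun hh => hvX (mem_inter.1 hh).2⟩
  omega

theorem no_ce [Nonempty V] {R : V → V → Prop} (h : CE R) : False := by
  classical
  have hex : ∃ n, ∃ R : V → V → Prop, CE R ∧ size R = n := ⟨_, R, h, rfl⟩
  obtain ⟨R0, h0, hs⟩ := Nat.find_spec hex
  apply no_ce_min h0
  intro R' h'
  rw [hs]
  exact Nat.find_min' hex ⟨R', h', rfl⟩

end

/-- **Seymour's second neighbourhood conjecture.** -/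
theorem seymour {V : Type*} [Fintype V] [Nonempty V] (D : OGraph V) :
    ∃ v, (N1 D v).card ≤ (N2 D v).card := by
  classical
  by_contra hno
  push Not at hno
  let R : V → V → Prop := fun a b => a = b ∨ D.arc a b
  have hR : ∀ a, R a a := fun a => Or.inl rfl
  apply no_ce (R := R)
  refine ⟨hR, ?_, ?_⟩
  · rintro a b (h | h) (h' | h')
    · exact h
    · exact h
    · exact h'.symm
    · exact absurd h' (D.asymm a b h)
  · intro v
    have e1 : cl R {v} = insert v (N1 D v) := by
      ext u
      simp only [mem_cl, mem_singleton, exists_eq_left, mem_insert, mem_N1, R]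
      constructor
      · rintro (h | h)
        · exact Or.inl h.symm
        · exact Or.inr h
      · rintro (h | h)
        · exact Or.inl h.symm
        · exact Or.inr h
    have hv1 : v ∉ N1 D v := fun h => D.loopless v (mem_N1.1 h)
    have e2 : cl R (cl R {v}) = insert v (N1 D v) ∪ N2 D v := by
      rw [e1]
      ext u
      simp only [mem_cl, mem_insert, mem_union, mem_N1, mem_N2, R]
      constructor
      · rintro ⟨s, (rfl | hs), (rfl | hsu)⟩
        · exact Or.inl (Or.inl rfl)
        · exact Or.inl (Or.inr hsu)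
        · exact Or.inl (Or.inr hs)
        · by_cases h1 : u = v
          · exact Or.inl (Or.inl h1)
          · by_cases h2 : D.arc v u
            · exact Or.inl (Or.inr h2)
            · exact Or.inr ⟨h1, h2, s, hs, hsu⟩
      · rintro ((h | h) | ⟨_, _, s, hs, hsu⟩)
        · exact ⟨v, Or.inl rfl, Or.inl h.symm⟩
        · exact ⟨v, Or.inl rfl, Or.inr h⟩
        · exact ⟨s, Or.inr hs, Or.inr hsu⟩
    have hd : Disjoint (insert v (N1 D v)) (N2 D v) := by
      rw [disjoint_left]
      intro x hx hx2
      rw [mem_N2] at hx2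
      rcases mem_insert.1 hx with h | h
      · exact hx2.1 h
      · exact hx2.2.1 (mem_N1.1 h)
    have c1 : (cl R {v}).card = (N1 D v).card + 1 := by
      rw [e1, card_insert_of_notMem hv1]
    have c2 : (cl R (cl R {v})).card = (N1 D v).card + 1 + (N2 D v).card := by
      rw [e2, card_union_of_disjoint hd, card_insert_of_notMem hv1]
    have := hno v
    unfold c
    rw [c2, c1, card_singleton]
    push_cast
    omega

end Vale.Agent.P038.H586
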