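import Vale.Agent.P038.H586.Core

/-!
# Minimal pairs of families of sets (problem P038)
-/

namespace Vale.Agent.P038.H586

open Finset

variable {V : Type*} [Fintype V] [DecidableEq V]

/-- minimum of `c` over the sets between `P` and `P ∪ Q` -/
noncomputable def mn (R : V → V → Prop) (P Q : Finset V) : ℤ :=
  (univ.filter fun T : Finset V => P ⊆ T ∧ T ⊆ P ∪ Q).inf'
    ⟨P, by simp [subset_union_left]⟩ (c R)

theorem mn_le {R : V → V → Prop} {P Q T : Finset V} (h1 : P ⊆ T) (h2 : T ⊆ P ∪ Q) :
    mn R P Q ≤ c R T :=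
  inf'_le _ (by simp [h1, h2])

theorem exists_mn (R : V → V → Prop) (P Q : Finset V) :
    ∃ T, P ⊆ T ∧ T ⊆ P ∪ Q ∧ c R T = mn R P Q := by
  obtain ⟨T, hT, hE⟩ := exists_mem_eq_inf'
    (s := univ.filter fun T : Finset V => P ⊆ T ∧ T ⊆ P ∪ Q)
    ⟨P, by simp [subset_union_left]⟩ (c R)
  rw [mem_filter] at hT
  exact ⟨T, hT.2.1, hT.2.2, hE.symm⟩

theorem mn_mono {R : V → V → Prop} {P P' Q : Finset V} (h1 : P ⊆ P') (h2 : P' ⊆ P ∪ Q) :
    mn R P Q ≤ mn R P' Q := by
  obtain ⟨T, h3, h4, h5⟩ := exists_mn R P' Q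
  rw [← h5]
  exact mn_le (h1.trans h3) (h4.trans (union_subset h2 subset_union_right))

theorem c_eq_sum {R : V → V → Prop} (hR : ∀ a, R a a) (S : Finset V) :
    c R S = ∑ u, (if u ∈ cl R S ∧ u ∉ S then (1 : ℤ) else 0) := by
  have h1 : (univ.filter fun u => u ∈ cl R S ∧ u ∉ S) = cl R S \ S := by
    ext u; simp
  rw [sum_boole, h1]
  have := card_sdiff_add_card_eq_card (subset_cl hR S)
  unfold c
  omega

theorem ite_add_le {p q r s : Prop} [Decidable p] [Decidable q] [Decidable r] [Decidable s]
    (hn : ¬ (p ∧ q)) (hp : p → r ∨ s) (hq : q → r ∨ s) :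
    (if p then (1 : ℤ) else 0) + (if q then (1 : ℤ) else 0) ≤
      (if r then (1 : ℤ) else 0) + (if s then (1 : ℤ) else 0) := by
  by_cases h1 : p
  · have h2 : ¬ q := fun h => hn ⟨h1, h⟩
    rw [if_pos h1, if_neg h2]
    rcases hp h1 with h3 | h3
    · rw [if_pos h3]
      split_ifs <;> omega
    · rw [if_pos h3]
      split_ifs <;> omega
  · rw [if_neg h1]
    by_cases h2 : q
    · rw [if_pos h2]
      rcases hq h2 with h3 | h3
      · rw [if_pos h3]
        split_ifs <;> omega
      · rw [if_pos h3]
        split_ifs <;> omega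
    · rw [if_neg h2]
      split_ifs <;> omega

theorem sum_update' (F : V → Finset V) (a : V) (T : Finset V) (f : Finset V → ℤ) :
    ∑ b, f (Function.update F a T b) = ∑ b, f (F b) + (f T - f (F a)) := by
  rw [← add_sum_erase univ (fun b => f (Function.update F a T b)) (mem_univ a),
    ← add_sum_erase univ (fun b => f (F b)) (mem_univ a)]
  have : ∑ x ∈ univ.erase a, f (Function.update F a T x) = ∑ x ∈ univ.erase a, f (F x) := by
    apply sum_congr rfl
    intro x hx
    rw [Function.update_of_ne (ne_of_mem_erase hx)]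
  simp only [Function.update_self]
  rw [this]
  ring

/-- a pair of families with no virtual two-cycle -/
structure Outer (R : V → V → Prop) (B C : V → Finset V) : Prop where
  left : ∀ a x, R a x → x ∈ B a
  right : ∀ a x, R a x → x ∈ C a
  sep : ∀ a x, x ∈ B a → a ∈ C x → a = x

/-- total out-boundary -/
noncomputable def o (R : V → V → Prop) (B C : V → Finset V) : ℤ :=
  ∑ a, c R (B a) + ∑ a, c R (C a)

section

variable (R : V → V → Prop) (B C : V → Finset V)

/-- complement of the second family -/
def Bh (a : V) : Finset V := univ.filter fun x => x = a ∨ a ∉ C x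

open Classical in
/-- erosion of `Bh` -/
noncomputable def Xh (a : V) : Finset V := univ.filter fun x => ∀ a', R a' a → x ∈ Bh C a'

open Classical in
/-- erosion of `C` -/
noncomputable def Yf (y : V) : Finset V := univ.filter fun z => ∀ y', R y' y → z ∈ C y'

/-- open cells in column `y` -/
def gg (y : V) : Finset V := univ.filter fun a => y ∈ Bh C a ∧ y ∉ B a

/-- row potential -/
noncomputable def dd (a : V) (S : Finset V) : ℤ := mn R ({a} ∪ (Xh R C a ∩ S)) (Xh R C a)

/-- row potential -/
noncomputable def ee (a : V) (S : Finset V) : ℤ := mn R (B a ∪ (Bh C a ∩ S)) (Bh C a)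

end

variable {R : V → V → Prop} {B C : V → Finset V}

theorem mem_Bh {a x : V} : x ∈ Bh C a ↔ x = a ∨ a ∉ C x := by simp [Bh]
theorem mem_Xh {a x : V} : x ∈ Xh R C a ↔ ∀ a', R a' a → x ∈ Bh C a' := by simp [Xh]
theorem mem_Yf {y z : V} : z ∈ Yf R C y ↔ ∀ y', R y' y → z ∈ C y' := by simp [Yf]
theorem mem_gg {y a : V} : a ∈ gg B C y ↔ y ∈ Bh C a ∧ y ∉ B a := by simp [gg]

theorem B_sub (h : Outer R B C) (a : V) : B a ⊆ Bh C a := by
  intro x hx
  rw [mem_Bh]
  by_cases hxa : x = a
  · exact Or.inl hxa
  · right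
    intro hc
    exact hxa (h.sep a x hx hc).symm

theorem Xh_sub {a a' : V} (hr : R a' a) : Xh R C a ⊆ Bh C a' :=
  fun _ hx => mem_Xh.1 hx a' hr

theorem self_Xh (h : Outer R B C) (a : V) : a ∈ Xh R C a :=
  mem_Xh.2 fun a' hr => B_sub h a' (h.left a' a hr)

theorem self_Yf (h : Outer R B C) (y : V) : y ∈ Yf R C y :=
  mem_Yf.2 fun y' hr => h.right y' y hr

theorem feas (hR : ∀ a, R a a) (h : Outer R B C) {a y : V} (h1 : y ∈ cl R (Xh R C a))
    (h2 : a ∈ cl R (Yf R C y)) : a = y := by
  obtain ⟨x, hx, hxy⟩ := mem_cl.1 h1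
  obtain ⟨z, hz, hza⟩ := mem_cl.1 h2
  have hzx : z ∈ C x := mem_Yf.1 hz x hxy
  have hxz : x = z := by
    rcases mem_Bh.1 (mem_Xh.1 hx z hza) with h3 | h3
    · exact h3
    · exact absurd hzx h3
  subst hxz
  have hac : a ∈ C x := h.right x a hza
  have hxa : x = a := by
    rcases mem_Bh.1 (mem_Xh.1 hx a (hR a)) with h3 | h3
    · exact h3
    · exact absurd hac h3
  subst hxa
  exact h.sep x y (h.left x y hxy) (mem_Yf.1 hz y (hR y))

/-- Lemma 1 -/
theorem lem1 (hR : ∀ a, R a a) (h : Outer R B C) :
    ∑ a, c R (Xh R C a) + ∑ y, c R (Yf R C y) ≤ ∑ a, c R (Bh C a) + ∑ y, c R (C y) := by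
  simp only [c_eq_sum hR]
  rw [sum_comm (f := fun y a => if a ∈ cl R (Yf R C y) ∧ a ∉ Yf R C y then (1 : ℤ) else 0),
    sum_comm (f := fun y a => if a ∈ cl R (C y) ∧ a ∉ C y then (1 : ℤ) else 0),
    ← sum_add_distrib, ← sum_add_distrib]
  apply sum_le_sum
  intro a _
  rw [← sum_add_distrib, ← sum_add_distrib]
  apply sum_le_sum
  intro y _
  have hnot : ¬ ((y ∈ cl R (Xh R C a) ∧ y ∉ Xh R C a) ∧ (a ∈ cl R (Yf R C y) ∧ a ∉ Yf R C y)) := by
    rintro ⟨⟨h1, h2⟩, h3, _⟩
    have := feas hR h h1 h3
    subst this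
    exact h2 (self_Xh h a)
  have hp : (y ∈ cl R (Xh R C a) ∧ y ∉ Xh R C a) →
      (y ∈ cl R (Bh C a) ∧ y ∉ Bh C a) ∨ (a ∈ cl R (C y) ∧ a ∉ C y) := by
    rintro ⟨h1, h2⟩
    rw [mem_Xh] at h2
    push Not at h2
    obtain ⟨a', hr, hn⟩ := h2
    rw [mem_Bh] at hn
    push Not at hn
    have hac : a ∈ cl R (C y) := mem_cl.2 ⟨a', hn.2, hr⟩
    by_cases hcy : a ∈ C y
    · left
      refine ⟨cl_mono (Xh_sub (hR a)) h1, ?_⟩
      rw [mem_Bh]
      rintro (h3 | h3)
      · subst h3
        have := mem_Xh.1 (self_Xh h y) a' hr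
        rw [mem_Bh] at this
        rcases this with h4 | h4
        · exact hn.1 h4
        · exact h4 hn.2
      · exact h3 hcy
    · exact Or.inr ⟨hac, hcy⟩
  have hq : (a ∈ cl R (Yf R C y) ∧ a ∉ Yf R C y) →
      (y ∈ cl R (Bh C a) ∧ y ∉ Bh C a) ∨ (a ∈ cl R (C y) ∧ a ∉ C y) := by
    rintro ⟨h1, h2⟩
    have h2' := h2
    rw [mem_Yf] at h2
    push Not at h2
    obtain ⟨y', hr, hn⟩ := h2
    have hyc : y ∈ cl R (Bh C a) := mem_cl.2 ⟨y', mem_Bh.2 (Or.inr hn), hr⟩
    by_cases hyB : y ∈ Bh C a
    · right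
      refine ⟨cl_mono (fun z hz => mem_Yf.1 hz y (hR y)) h1, ?_⟩
      rcases mem_Bh.1 hyB with h3 | h3
      · subst h3
        exact absurd (self_Yf h y) h2'
      · exact h3
    · exact Or.inl ⟨hyc, hyB⟩
  exact ite_add_le hnot hp hq

theorem opt_row (h : Outer R B C) (hmin : ∀ B' C', Outer R B' C' → o R B C ≤ o R B' C')
    (a : V) (T : Finset V) (h1 : B a ⊆ T) (h2 : T ⊆ Bh C a) : c R (B a) ≤ c R T := by
  have hO : Outer R (Function.update B a T) C := by
    refine ⟨?_, h.right, ?_⟩
    · intro b x hr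
      by_cases hb : b = a
      · subst hb
        rw [Function.update_self]
        exact h1 (h.left b x hr)
      · rw [Function.update_of_ne hb]
        exact h.left b x hr
    · intro b x hx hc
      by_cases hb : b = a
      · subst hb
        rw [Function.update_self] at hx
        rcases mem_Bh.1 (h2 hx) with h3 | h3
        · exact h3.symm
        · exact absurd hc h3
      · rw [Function.update_of_ne hb] at hx
        exact h.sep b x hx hc
  have := hmin _ _ hO
  unfold o at this
  rw [sum_update' B a T (c R)] at this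
  linarith

theorem opt_col (hR : ∀ a, R a a) (h : Outer R B C) (hmin : ∀ B' C', Outer R B' C' → o R B C ≤ o R B' C')
    (y : V) (K : Finset V) (hK : K ⊆ gg B C y) : K.card ≤ (cl R K \ cl R (C y)).card := by
  have hO : Outer R B (Function.update C y (C y ∪ K)) := by
    refine ⟨h.left, ?_, ?_⟩
    · intro b x hr
      by_cases hb : b = y
      · subst hb
        rw [Function.update_self]
        exact mem_union_left _ (h.right b x hr)
      · rw [Function.update_of_ne hb]
        exact h.right b x hr
    · intro b x hx hc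
      by_cases hb : x = y
      · subst hb
        rw [Function.update_self, mem_union] at hc
        rcases hc with h3 | h3
        · exact h.sep b x hx h3
        · exact absurd hx (mem_gg.1 (hK h3)).2
      · rw [Function.update_of_ne hb] at hc
        exact h.sep b x hx hc
  have h1 := hmin _ _ hO
  unfold o at h1
  rw [sum_update' C y (C y ∪ K) (c R)] at h1
  have hd : Disjoint (C y) K := by
    rw [disjoint_left]
    intro x hx hxK
    obtain ⟨h3, h4⟩ := mem_gg.1 (hK hxK)
    rcases mem_Bh.1 h3 with h5 | h5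
    · subst h5
      exact h4 (h.left y y (hR y))
    · exact h5 hx
  have h2 : (C y ∪ K).card = (C y).card + K.card := card_union_of_disjoint hd
  have h3 : (cl R (C y ∪ K)).card = (cl R (C y)).card + (cl R K \ cl R (C y)).card := by
    rw [cl_union, ← union_sdiff_self_eq_union, card_union_of_disjoint disjoint_sdiff]
  unfold c at h1
  omega

theorem hall_inj (hR : ∀ a, R a a) (h : Outer R B C)
    (hmin : ∀ B' C', Outer R B' C' → o R B C ≤ o R B' C') (y : V) :
    ∃ i : V → V, Set.InjOn i (gg B C y) ∧ ∀ a' ∈ gg B C y, R a' (i a') ∧ y ∈ Xh R C (i a') := by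
  classical
  let t : {a // a ∈ gg B C y} → Finset V := fun a => univ.filter fun b => R a.1 b ∧ b ∉ cl R (C y)
  have hall : ∀ s : Finset {a // a ∈ gg B C y}, s.card ≤ (s.biUnion t).card := by
    intro s
    have h1 := opt_col hR h hmin y (s.map (Function.Embedding.subtype _)) (by
      intro x hx
      rw [mem_map] at hx
      obtain ⟨z, _, rfl⟩ := hx
      exact z.2)
    rw [card_map] at h1
    refine h1.trans (card_le_card ?_)
    intro b hb
    rw [mem_sdiff] at hb
    obtain ⟨x, hx, hr⟩ := mem_cl.1 hb.1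
    rw [mem_map] at hx
    obtain ⟨z, hz, rfl⟩ := hx
    rw [mem_biUnion]
    refine ⟨z, hz, ?_⟩
    simp only [t, mem_filter, mem_univ, true_and]
    exact ⟨hr, hb.2⟩
  obtain ⟨f, hf, hft⟩ := (all_card_le_biUnion_card_iff_exists_injective t).1 hall
  refine ⟨fun a => if ha : a ∈ gg B C y then f ⟨a, ha⟩ else a, ?_, ?_⟩
  · intro a ha b hb hab
    have ha' : a ∈ gg B C y := ha
    have hb' : b ∈ gg B C y := hb
    simp only [dif_pos ha', dif_pos hb'] at hab
    have := hf hab
    simpa using this
  · intro a' ha'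
    simp only [dif_pos ha']
    have h1 := hft ⟨a', ha'⟩
    simp only [t, mem_filter, mem_univ, true_and] at h1
    refine ⟨h1.1, mem_Xh.2 fun a'' hr => mem_Bh.2 (Or.inr fun hc => ?_)⟩
    exact h1.2 (mem_cl.2 ⟨a'', hc, hr⟩)

theorem marg (h : Outer R B C) {a a' y : V} (hr : R a' a) (hy : y ∈ Xh R C a) (S : Finset V) :
    dd R C a S + ee R B C a' (insert y S) ≤ dd R C a (insert y S) + ee R B C a' S := by
  obtain ⟨T1, h1, h2, h3⟩ := exists_mn R ({a} ∪ (Xh R C a ∩ insert y S)) (Xh R C a)
  obtain ⟨T0, h4, h5, h6⟩ := exists_mn R (B a' ∪ (Bh C a' ∩ S)) (Bh C a')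
  have hXB : Xh R C a ⊆ Bh C a' := Xh_sub hr
  have haX := self_Xh h a
  have haB : a ∈ Bh C a' := hXB haX
  have hBB := B_sub h a'
  have hT1 : T1 ⊆ Bh C a' := by
    intro x hx
    have := h2 hx
    simp only [mem_union, mem_singleton, mem_inter] at this
    rcases this with (h7 | h7) | h7
    · rw [h7]; exact haB
    · exact hXB h7.1
    · exact hXB h7
  have hT0 : T0 ⊆ Bh C a' := by
    intro x hx
    have := h5 hx
    simp only [mem_union, mem_inter] at this
    rcases this with (h7 | h7) | h7
    · exact hBB h7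
    · exact h7.1
    · exact h7
  have hyT1 : y ∈ T1 := h1 (mem_union_right _ (mem_inter.2 ⟨hy, mem_insert_self _ _⟩))
  have e1 : ee R B C a' (insert y S) ≤ c R (T1 ∪ T0) := by
    apply mn_le
    · intro x hx
      simp only [mem_union, mem_inter, mem_insert] at hx
      rcases hx with h7 | ⟨h7, h8 | h8⟩
      · exact mem_union_right _ (h4 (mem_union_left _ h7))
      · rw [h8]; exact mem_union_left _ hyT1
      · exact mem_union_right _ (h4 (mem_union_right _ (mem_inter.2 ⟨h7, h8⟩)))
    · exact (union_subset hT1 hT0).trans subset_union_right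
  have e2 : dd R C a S ≤ c R (T1 ∩ T0) := by
    apply mn_le
    · intro x hx
      simp only [mem_union, mem_singleton, mem_inter] at hx
      rcases hx with h7 | ⟨h7, h8⟩
      · rw [h7]
        exact mem_inter.2 ⟨h1 (mem_union_left _ (mem_singleton_self a)),
          h4 (mem_union_left _ (h.left a' a hr))⟩
      · exact mem_inter.2 ⟨h1 (mem_union_right _ (mem_inter.2 ⟨h7, mem_insert_of_mem h8⟩)),
          h4 (mem_union_right _ (mem_inter.2 ⟨hXB h7, h8⟩))⟩
    · intro x hx
      have := h2 (mem_inter.1 hx).1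
      simp only [mem_union, mem_singleton, mem_inter] at this
      rcases this with (h7 | h7) | h7
      · rw [h7]; exact mem_union_left _ (mem_union_left _ (mem_singleton_self a))
      · exact mem_union_right _ h7.1
      · exact mem_union_right _ h7
  have e3 := c_submod R T1 T0
  have e4 : dd R C a (insert y S) = c R T1 := h3.symm
  have e5 : ee R B C a' S = c R T0 := h6.symm
  linarith

theorem dd_mono (a : V) {S S' : Finset V} (hS : S ⊆ S') : dd R C a S ≤ dd R C a S' := by
  apply mn_mono
  · exact union_subset_union_right (inter_subset_inter_left hS)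
  · intro x hx
    simp only [mem_union, mem_singleton, mem_inter] at hx ⊢
    tauto

theorem step (hR : ∀ a, R a a) (h : Outer R B C)
    (hmin : ∀ B' C', Outer R B' C' → o R B C ≤ o R B' C') (y : V) (S : Finset V) :
    ∑ a, (ee R B C a (insert y S) - ee R B C a S) ≤
      ∑ a, (dd R C a (insert y S) - dd R C a S) := by
  obtain ⟨i, hi, hi2⟩ := hall_inj hR h hmin y
  have h0 : ∀ a, a ∉ gg B C y → ee R B C a (insert y S) - ee R B C a S = 0 := by
    intro a ha
    rw [mem_gg] at ha
    have : B a ∪ (Bh C a ∩ insert y S) = B a ∪ (Bh C a ∩ S) := by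
      ext x
      simp only [mem_union, mem_inter, mem_insert]
      constructor
      · rintro (h1 | ⟨h1, h2 | h2⟩)
        · exact Or.inl h1
        · subst h2
          by_cases h3 : x ∈ B a
          · exact Or.inl h3
          · exact absurd ⟨h1, h3⟩ ha
        · exact Or.inr ⟨h1, h2⟩
      · rintro (h1 | ⟨h1, h2⟩)
        · exact Or.inl h1
        · exact Or.inr ⟨h1, Or.inr h2⟩
    unfold ee
    rw [this, sub_self]
  have h1 : ∑ a, (ee R B C a (insert y S) - ee R B C a S) =
      ∑ a ∈ gg B C y, (ee R B C a (insert y S) - ee R B C a S) := by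
    symm
    apply sum_subset (subset_univ _)
    intro a _ ha
    exact h0 a ha
  have h2 : ∑ a ∈ gg B C y, (ee R B C a (insert y S) - ee R B C a S) ≤
      ∑ a ∈ gg B C y, (dd R C (i a) (insert y S) - dd R C (i a) S) := by
    apply sum_le_sum
    intro a ha
    have := marg h (hi2 a ha).1 (hi2 a ha).2 S
    linarith
  have h3 : ∑ a ∈ gg B C y, (dd R C (i a) (insert y S) - dd R C (i a) S) =
      ∑ b ∈ (gg B C y).image i, (dd R C b (insert y S) - dd R C b S) := by
    rw [sum_image (fun a ha b hb hab => hi ha hb hab)]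
  have h4 : ∑ b ∈ (gg B C y).image i, (dd R C b (insert y S) - dd R C b S) ≤
      ∑ b, (dd R C b (insert y S) - dd R C b S) := by
    apply sum_le_sum_of_subset_of_nonneg (subset_univ _)
    intro b _ _
    have := dd_mono (R := R) (C := C) b (subset_insert y S)
    linarith
  rw [h1]
  linarith

theorem pot (hR : ∀ a, R a a) (h : Outer R B C)
    (hmin : ∀ B' C', Outer R B' C' → o R B C ≤ o R B' C') (S : Finset V) :
    ∑ a, (ee R B C a S - ee R B C a ∅) ≤ ∑ a, (dd R C a S - dd R C a ∅) := by
  induction S using Finset.induction_on with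
  | empty => simp
  | insert y S _ ih =>
    have h1 := step hR h hmin y S
    simp only [sum_sub_distrib] at h1 ih ⊢
    linarith

theorem key (hR : ∀ a, R a a) (h : Outer R B C)
    (hmin : ∀ B' C', Outer R B' C' → o R B C ≤ o R B' C') :
    ∃ X Y : V → Finset V, (∀ a, a ∈ X a) ∧ (∀ a, a ∈ Y a) ∧
      Outer R (fun a => cl R (X a)) (fun a => cl R (Y a)) ∧
      ∑ a, c R (X a) + ∑ a, c R (Y a) ≤ o R B C := by
  choose X hX1 hX2 hX3 using fun a => exists_mn R ({a} ∪ (Xh R C a ∩ ∅)) (Xh R C a)
  have haX : ∀ a, a ∈ X a := fun a => hX1 a (by simp)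
  have hXX : ∀ a, X a ⊆ Xh R C a := by
    intro a x hx
    have := hX2 a hx
    simp only [inter_empty, union_empty, mem_union, mem_singleton] at this
    rcases this with h1 | h1
    · rw [h1]; exact self_Xh h a
    · exact h1
  refine ⟨X, Yf R C, haX, self_Yf h, ?_, ?_⟩
  · refine ⟨fun a x hr => mem_cl.2 ⟨a, haX a, hr⟩, fun a x hr => mem_cl.2 ⟨a, self_Yf h a, hr⟩, ?_⟩
    intro a x h1 h2
    exact feas hR h (cl_mono (hXX a) h1) h2
  · have h1 := pot hR h hmin univ
    have h2 := lem1 hR h
    simp only [sum_sub_distrib] at h1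
    have e1 : ∑ a, ee R B C a univ = ∑ a, c R (Bh C a) := by
      apply sum_congr rfl
      intro a _
      obtain ⟨T, h3, h4, h5⟩ := exists_mn R (B a ∪ (Bh C a ∩ univ)) (Bh C a)
      have : T = Bh C a := by
        apply Subset.antisymm
        · intro x hx
          have := h4 hx
          simp only [inter_univ, mem_union] at this
          rcases this with (h6 | h6) | h6
          · exact B_sub h a h6
          · exact h6
          · exact h6
        · intro x hx
          exact h3 (mem_union_right _ (by simpa using hx))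
      rw [this] at h5
      exact h5.symm
    have e2 : ∑ a, dd R C a univ = ∑ a, c R (Xh R C a) := by
      apply sum_congr rfl
      intro a _
      obtain ⟨T, h3, h4, h5⟩ := exists_mn R ({a} ∪ (Xh R C a ∩ univ)) (Xh R C a)
      have : T = Xh R C a := by
        apply Subset.antisymm
        · intro x hx
          have := h4 hx
          simp only [inter_univ, mem_union, mem_singleton] at this
          rcases this with (h6 | h6) | h6
          · rw [h6]; exact self_Xh h a
          · exact h6
          · exact h6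
        · intro x hx
          exact h3 (mem_union_right _ (by simpa using hx))
      rw [this] at h5
      exact h5.symm
    have e3 : ∑ a, c R (B a) ≤ ∑ a, ee R B C a ∅ := by
      apply sum_le_sum
      intro a _
      obtain ⟨T, h3, h4, h5⟩ := exists_mn R (B a ∪ (Bh C a ∩ ∅)) (Bh C a)
      have h6 : c R (B a) ≤ c R T := by
        apply opt_row h hmin a T
        · exact subset_union_left.trans h3
        · intro x hx
          have := h4 hx
          simp only [inter_empty, union_empty, mem_union] at this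
          rcases this with h7 | h7
          · exact B_sub h a h7
          · exact h7
      rw [h5] at h6
      exact h6
    have e3' : ∑ a, ee R B C a ∅ ≤ ∑ a, c R (B a) := by
      apply sum_le_sum
      intro a _
      apply mn_le
      · simp
      · exact subset_union_left.trans subset_union_left
    have e4 : ∑ a, dd R C a ∅ = ∑ a, c R (X a) := by
      apply sum_congr rfl
      intro a _
      exact (hX3 a).symm
    unfold o
    rw [e1, e2, e4] at h1
    linarith

end Vale.Agent.P038.H586
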